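import Vale.Agent.P113.Main

open Set Vale.Agent.P113

/-- For every computable `ν > 0` there are a point `a` of the torus, an open set `O` and a force
compiler such that, for every machine `M` and every input `w`, the forced Navier-Stokes system
started from rest has a global smooth solution, which is the unique classical solution on each
`[0, T]`, and whose trajectory from `a` meets `O` if and only if `M` halts on `w`. -/
theorem Vale.Agent.Results.P113.HaltingDetection.result (ν : ℝ) (hν : 0 < ν)
    (hc : IsComputableReal ν) :
    ∃ (a : T3) (O : Set T3) (comp : Machine × List ℕ → Nat.Partrec.Code)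
      (f : Machine → List ℕ → ℝ → R3 → R3),
      IsOpen O ∧ IsForceCompiler comp f ∧
      ∀ (M : Machine) (w : List ℕ), ∃ (u : ℝ → R3 → R3) (p : ℝ → R3 → ℝ),
        IsGlobalSmoothSolution ν (f M w) u p ∧
        (∀ T > 0, IsClassicalSolution ν (f M w) (Icc 0 T) u p ∧
          ∀ v q, IsClassicalSolution ν (f M w) (Icc 0 T) v q →
            ∀ t ∈ Icc 0 T, ∀ x, v t x = u t x ∧ q t x = p t x) ∧
        (∃ X, IsTrajectory u a X) ∧
        ∀ X, IsTrajectory u a X → ((∃ t ≥ 0, toT3 (X t) ∈ O) ↔ HaltsOn M w) :=
  main ν hν hc
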