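import Vale.Agent.P113.Main

open Set Vale.Agent.P113

/-- There are a point `a` of the torus, an open set `O` and, for every machine `M` and every input
`w`, a velocity field `u M w`, all independent of the viscosity, such that the trajectory of `a` in
`u M w` meets `O` if and only if `M` halts on `w`, and such that for every computable `ν > 0` there
is a force compiler whose forces produce, from rest, exactly these velocity fields, each being the
unique classical solution on every `[0, T]`. -/
theorem Vale.Agent.Results.P113.UniformDetection.result :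
    ∃ (a : T3) (O : Set T3) (u : Machine → List ℕ → ℝ → R3 → R3),
      IsOpen O ∧
      (∀ (M : Machine) (w : List ℕ), (∃ X, IsTrajectory (u M w) a X) ∧
        ∀ X, IsTrajectory (u M w) a X → ((∃ t ≥ 0, toT3 (X t) ∈ O) ↔ HaltsOn M w)) ∧
      ∀ ν : ℝ, 0 < ν → IsComputableReal ν →
        ∃ (comp : Machine × List ℕ → Nat.Partrec.Code) (f : Machine → List ℕ → ℝ → R3 → R3),
          IsForceCompiler comp f ∧
          ∀ (M : Machine) (w : List ℕ), ∃ p : ℝ → R3 → ℝ,
            IsGlobalSmoothSolution ν (f M w) (u M w) p ∧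
            ∀ T > 0, IsClassicalSolution ν (f M w) (Icc 0 T) (u M w) p ∧
              ∀ v q, IsClassicalSolution ν (f M w) (Icc 0 T) v q →
                ∀ t ∈ Icc 0 T, ∀ x, v t x = u M w t x ∧ q t x = p t x := by
  refine ⟨toT3 0, target, fun M w => uSol (amp (M, w)), isOpen_target, ?_, ?_⟩
  · intro M w
    refine ⟨⟨_, traj_isTrajectory _⟩, ?_⟩
    intro X hX
    by_cases hH : HaltsOn M w
    · obtain ⟨h0, h1⟩ := amp_of_halts (a := (M, w)) hH
      exact ⟨fun _ => hH, fun _ => hits_of_pos h0 h1 hX⟩
    · have h0 : amp (M, w) = 0 := amp_of_not_halts (a := (M, w)) hH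
      have hX' : IsTrajectory (uSol (amp (M, w))) (toT3 0) X := hX
      rw [h0] at hX'
      exact ⟨fun h => absurd h (not_hits_zero hX'), fun h => absurd h hH⟩
  · intro ν hν hc
    obtain ⟨comp, hcomp, hC⟩ := exists_compiler hc
    refine ⟨comp, fun M w => fSol ν (amp (M, w)),
      ⟨hcomp, fun M w => ⟨⟨fun t _ => fSol_periodic ν _ t, (fSol_contDiff ν _).contDiffOn⟩, hC M w⟩,
        1, zero_le_one, fun M => ⟨1, one_pos, fun w t ht x => fSol_time_periodic ν _ ht x⟩,
        fun M w w' t ht x => fSol_indep ν _ _ ht x⟩, fun M w => ?_⟩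
    refine ⟨fun _ _ => 0, ⟨isClassicalSolution_uSol ν _ (uniqueDiffOn_Ici 0) Subset.rfl,
      (uSol_contDiff _).contDiffOn, contDiffOn_const⟩, ?_⟩
    intro T hT
    have h := isClassicalSolution_uSol ν (amp (M, w)) (uniqueDiffOn_Icc hT) Icc_subset_Ici_self
    exact ⟨h, fun v q hv => uniqueness hν h hv⟩
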